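import Vale.Agent.P063.Threshold

/-!
Threshold widths of increasing hypergraph properties: both Friedgut-Kalai questions.
-/

namespace Vale.Agent.Results.P063.ThresholdWidth

open Vale.Agent.P063

theorem result :
    ∀ r : ℕ, 2 ≤ r → ∀ ε : ℝ, 0 < ε → ε < 1 / 2 →
      ∃ C : ℝ, ∀ n : ℕ, r ≤ n → ∀ P : Set (Edge n r → Bool),
        P.Nonempty → P ≠ Set.univ → IncreasingProp P → InvariantProp P →
          pThreshold P (1 - ε) - pThreshold P ε
            ≤ C * Real.log n ^ (-((r : ℝ) / ((r : ℝ) - 1))) := by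
  intro r hr ε hε hε2
  exact ⟨2 * influenceConst r / ε, fun n hn P hne _ hmono hinv =>
    width_le hr hn hne hmono hinv hε hε2⟩

end Vale.Agent.Results.P063.ThresholdWidth
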